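import Vale.Agent.P095.Amenable.Free.Norms

/-! A scalar projection of small cofraction removing the large eigenvalues. -/

noncomputable section

open scoped Classical ComplexOrder Kronecker Matrix

namespace Vale.Agent.P095.Amenable.FreeModel

lemma norm_le_one_of_proj {B : Type*} [CStarAlgebra B] {p : B} (hs : star p = p)
    (hp : p * p = p) : ‖p‖ ≤ 1 := by
  have h := CStarRing.norm_star_mul_self (x := p)
  rw [hs, hp] at h
  nlinarith [norm_nonneg p]

lemma norm_le_one_of_gram_proj {B : Type*} [CStarAlgebra B] {x : B}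
    (hp : star x * x * (star x * x) = star x * x) : ‖x‖ ≤ 1 := by
  have h := norm_le_one_of_proj (by rw [star_mul, star_star]) hp
  rw [CStarRing.norm_star_mul_self] at h
  nlinarith [norm_nonneg x]

variable {L k : ℕ}

/-- Killing finitely many vectors by a scalar projection. -/
lemma exists_kill {ι : Type*} [Fintype ι] (v : ι → Fin L → ℂ) :
    ∃ P : Matrix (Fin L) (Fin L) ℂ, star P = P ∧ P * P = P ∧
      (L : ℝ) - P.trace.re ≤ Fintype.card ι ∧ ∀ i, P *ᵥ v i = 0 := by
  set v' : ι → EuclideanSpace ℂ (Fin L) := fun i => WithLp.toLp 2 (v i)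
  set W : Submodule ℂ (EuclideanSpace ℂ (Fin L)) := Submodule.span ℂ (Set.range v') with hW
  set o := stdOrthonormalBasis ℂ W
  set Q : Matrix (Fin L) (Fin (Module.finrank ℂ W)) ℂ :=
    Matrix.of fun b s => (o s : EuclideanSpace ℂ (Fin L)) b with hQ
  have hQQ : Qᴴ * Q = 1 := by
    ext s t
    have := (orthonormal_iff_ite.1 o.orthonormal) s t
    rw [Submodule.coe_inner, PiLp.inner_apply] at this
    rw [Matrix.mul_apply, Matrix.one_apply, ← this]
    exact Finset.sum_congr rfl fun b _ => by simp [hQ, mul_comm]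
  have hQP : Q * Qᴴ * (Q * Qᴴ) = Q * Qᴴ := by
    rw [← Matrix.mul_assoc, Matrix.mul_assoc Q, hQQ, Matrix.mul_one]
  refine ⟨1 - Q * Qᴴ, ?_, ?_, ?_, fun i => ?_⟩
  · rw [Matrix.star_eq_conjTranspose]
    simp [Matrix.conjTranspose_mul]
  · rw [sub_mul, mul_sub, mul_sub, one_mul, mul_one, one_mul, hQP]
    abel
  · rw [Matrix.trace_sub, Matrix.trace_one, Matrix.trace_mul_comm, hQQ, Matrix.trace_one]
    have : Module.finrank ℂ W ≤ Fintype.card ι := finrank_range_le_card v'
    have h' : ((Module.finrank ℂ W : ℕ) : ℝ) ≤ Fintype.card ι := by exact_mod_cast this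
    simpa using h'
  · have hmem : v' i ∈ W := Submodule.subset_span ⟨i, rfl⟩
    have h := congrArg (fun w : W => (w : EuclideanSpace ℂ (Fin L)))
      (o.sum_repr' ⟨v' i, hmem⟩)
    simp only [Submodule.coe_sum, Submodule.coe_smul, Submodule.coe_inner] at h
    rw [Matrix.sub_mulVec, Matrix.one_mulVec, sub_eq_zero, ← Matrix.mulVec_mulVec]
    funext a
    have ha := congrArg (fun w : EuclideanSpace ℂ (Fin L) => w a) h
    simp only [WithLp.ofLp_sum, Finset.sum_apply, WithLp.ofLp_smul, Pi.smul_apply,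
      smul_eq_mul] at ha
    refine ha.symm.trans ?_
    simp only [Matrix.mulVec, dotProduct, PiLp.inner_apply, hQ, Matrix.conjTranspose_apply]
    exact Finset.sum_congr rfl fun s _ => by
      rw [mul_comm]
      exact congrArg _ (Finset.sum_congr rfl fun b _ => by simp [v', mul_comm])

/-- The compression. -/
lemma exists_compression (H : Matrix (Fin L × Fin k) (Fin L × Fin k) ℂ) (hH : H.IsHermitian)
    (p : ℕ) {θ B : ℝ} (hθ : 0 < θ) (hB : (H ^ (2 * p)).trace.re ≤ B) :
    ∃ P : Matrix (Fin L) (Fin L) ℂ, star P = P ∧ P * P = P ∧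
      (L : ℝ) - P.trace.re ≤ k * (B / θ ^ (2 * p)) ∧
      ‖CStarMatrix.ofMatrix ((P ⊗ₖ (1 : Matrix (Fin k) (Fin k) ℂ)) * H
        * (P ⊗ₖ (1 : Matrix (Fin k) (Fin k) ℂ)))‖ ≤ θ := by
  set U : Matrix (Fin L × Fin k) (Fin L × Fin k) ℂ :=
    (hH.eigenvectorUnitary : Matrix (Fin L × Fin k) (Fin L × Fin k) ℂ) with hU
  set lam := hH.eigenvalues with hlam
  set big := Finset.univ.filter fun j => θ < |lam j| with hbig
  have hUU : star U * U = 1 := Unitary.coe_star_mul_self _
  have hspec : H = U * Matrix.diagonal (fun j => (lam j : ℂ)) * star U := by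
    refine hH.spectral_theorem.trans ?_
    rw [Unitary.conjStarAlgAut_apply]
    rfl
  have hpow : ∀ m, H ^ m = U * Matrix.diagonal (fun j => (lam j : ℂ) ^ m) * star U := by
    intro m
    induction m with
    | zero =>
      rw [pow_zero]
      simp only [pow_zero, Matrix.diagonal_one, mul_one]
      exact (Unitary.coe_mul_star_self _).symm
    | succ m ih =>
      rw [pow_succ, ih]
      conv_lhs => arg 2; rw [hspec]
      rw [show ∀ D D' : Matrix (Fin L × Fin k) (Fin L × Fin k) ℂ,
        U * D * star U * (U * D' * star U) = U * (D * (star U * U) * D') * star U from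
        fun D D' => by noncomm_ring, hUU, mul_one, Matrix.diagonal_mul_diagonal]
      simp [pow_succ]
  have htr : (H ^ (2 * p)).trace.re = ∑ j, lam j ^ (2 * p) := by
    rw [hpow, Matrix.trace_mul_cycle, hUU, Matrix.one_mul, Matrix.trace_diagonal, Complex.re_sum]
    exact Finset.sum_congr rfl fun j _ => by rw [← Complex.ofReal_pow, Complex.ofReal_re]
  have hcard : (big.card : ℝ) ≤ B / θ ^ (2 * p) := by
    rw [le_div_iff₀ (pow_pos hθ _)]
    calc (big.card : ℝ) * θ ^ (2 * p) = ∑ _j ∈ big, θ ^ (2 * p) := by simp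
      _ ≤ ∑ j ∈ big, lam j ^ (2 * p) := Finset.sum_le_sum fun j hj => by
          rw [← (even_two_mul p).pow_abs (lam j)]
          exact pow_le_pow_left₀ hθ.le (Finset.mem_filter.1 hj).2.le _
      _ ≤ ∑ j, lam j ^ (2 * p) :=
          Finset.sum_le_sum_of_subset_of_nonneg (Finset.subset_univ _)
            fun j _ _ => (even_two_mul p).pow_nonneg _
      _ ≤ B := htr ▸ hB
  obtain ⟨P, hPs, hPP, hPtr, hPv⟩ :=
    exists_kill (ι := ↥big × Fin k) fun ji b => U (b, ji.2) ji.1
  set P' := P ⊗ₖ (1 : Matrix (Fin k) (Fin k) ℂ) with hP'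
  have hkill : ∀ j ∈ big, ∀ a, (P' * U) a j = 0 := by
    intro j hj a
    rw [Matrix.mul_apply, Fintype.sum_prod_type]
    have h := congrFun (hPv (⟨j, hj⟩, a.2)) a.1
    simpa [hP', Matrix.kroneckerMap_apply, Matrix.one_apply, Matrix.mulVec, dotProduct] using h
  have hP's : star P' = P' := by
    rw [hP', Matrix.star_eq_conjTranspose, Matrix.conjTranspose_kronecker,
      Matrix.conjTranspose_one, ← Matrix.star_eq_conjTranspose, hPs]
  have hP'P : P' * P' = P' := by
    rw [hP', ← Matrix.mul_kronecker_mul, hPP, Matrix.one_mul]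
  refine ⟨P, hPs, hPP, hPtr.trans ?_, ?_⟩
  · rw [Fintype.card_prod, Fintype.card_coe, Fintype.card_fin, Nat.cast_mul, mul_comm]
    exact mul_le_mul_of_nonneg_left hcard (Nat.cast_nonneg _)
  set D' := Matrix.diagonal fun j => if j ∈ big then (0 : ℂ) else (lam j : ℂ) with hD'
  have hred : P' * U * Matrix.diagonal (fun j => (lam j : ℂ)) = P' * U * D' := by
    ext a j
    rw [hD', Matrix.mul_diagonal, Matrix.mul_diagonal]
    split_ifs with h
    · rw [hkill j h a, zero_mul, zero_mul]
    · rfl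
  have e : P' * H * P' = P' * U * D' * star (P' * U) := by
    rw [← hred, star_mul, hP's]
    conv_lhs => rw [hspec]
    simp only [Matrix.mul_assoc]
  rw [e]
  set c := fun M : Matrix (Fin L × Fin k) (Fin L × Fin k) ℂ => CStarMatrix.ofMatrix M
  change ‖c (P' * U) * c D' * star (c (P' * U))‖ ≤ θ
  have h1 : ‖c (P' * U)‖ ≤ 1 := by
    refine (norm_mul_le (c P') (c U)).trans ?_
    have a1 : ‖c P'‖ ≤ 1 := norm_le_one_of_proj (p := c P') hP's hP'P
    have a2 : ‖c U‖ ≤ 1 := by
      refine norm_le_one_of_gram_proj ?_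
      change star U * U * (star U * U) = star U * U
      rw [hUU, mul_one]
    exact mul_le_one₀ a1 (norm_nonneg _) a2
  have h2 : ‖c D'‖ ≤ θ := by
    refine norm_diagM (d := fun j => if j ∈ big then (0 : ℂ) else (lam j : ℂ)) hθ.le fun j => ?_
    split_ifs with h
    · simpa using hθ.le
    · rw [Complex.norm_real, Real.norm_eq_abs]
      by_contra h'
      exact h (Finset.mem_filter.2 ⟨Finset.mem_univ _, not_le.1 h'⟩)
  refine (norm_mul_le _ _).trans ?_
  have h4 : ‖star (c (P' * U))‖ ≤ 1 := (norm_star (c (P' * U))).trans_le h1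
  have h3 : ‖c (P' * U) * c D'‖ ≤ θ := (norm_mul_le _ _).trans
    ((mul_le_mul h1 h2 (norm_nonneg _) zero_le_one).trans_eq (one_mul θ))
  exact (mul_le_mul h3 h4 (norm_nonneg _) hθ.le).trans_eq (mul_one θ)

end Vale.Agent.P095.Amenable.FreeModel
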