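import Vale.Agent.P095.Amenable.Free.Norms

/-! Transfer of norm bounds through completely positive maps and matrix flattening. -/

noncomputable section

open scoped Classical ComplexOrder

namespace Vale.Agent.P095.Amenable.FreeModel

universe u v

variable {B : Type u} {C : Type v} [Ring B] [StarRing B] [Algebra ℂ B] [Ring C]
    [StarRing C] [Algebra ℂ C]

variable {ι : Type*} [Fintype ι] [DecidableEq ι]

/-- A matrix lies between plus and minus c, witnessed by squares. -/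
def Bdd (c : ℝ) (X : Matrix ι ι B) : Prop :=
  ∃ y z : Matrix ι ι B, star y * y = (c : ℂ) • (1 : Matrix ι ι B) - X ∧
    star z * z = (c : ℂ) • (1 : Matrix ι ι B) + X

lemma Bdd.cp {φ : B →ₗ[ℂ] C} (h : IsCP φ) (h1 : φ 1 = 1) {c : ℝ} {X : Matrix ι ι B}
    (hX : Bdd c X) : Bdd c (X.map φ) := by
  obtain ⟨y, z, hy, hz⟩ := hX
  obtain ⟨y', hy'⟩ := cp_fintype h y
  obtain ⟨z', hz'⟩ := cp_fintype h z
  have e1 : ((c : ℂ) • (1 : Matrix ι ι B)).map φ = (c : ℂ) • (1 : Matrix ι ι C) := by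
    ext a b
    simp only [Matrix.map_apply, Matrix.smul_apply, map_smul, Matrix.one_apply]
    split_ifs <;> simp [h1]
  refine ⟨y', z', ?_, ?_⟩
  · rw [← hy', hy, ← e1]
    ext a b
    simp [Matrix.map_apply, map_sub]
  · rw [← hz', hz, ← e1]
    ext a b
    simp [Matrix.map_apply, map_add]

variable {k : ℕ}

omit [DecidableEq ι] in
lemma comp_star (M : Matrix ι ι (Matrix (Fin k) (Fin k) ℂ)) :
    Matrix.compRingEquiv ι (Fin k) ℂ (star M) = star (Matrix.compRingEquiv ι (Fin k) ℂ M) := rfl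

lemma comp_smul_one (c : ℂ) :
    Matrix.compRingEquiv ι (Fin k) ℂ (c • (1 : Matrix ι ι (Matrix (Fin k) (Fin k) ℂ)))
      = c • (1 : Matrix (ι × Fin k) (ι × Fin k) ℂ) := by
  rw [← Matrix.comp_one]
  rfl

lemma Bdd.flatten {c : ℝ} {X : Matrix ι ι (Matrix (Fin k) (Fin k) ℂ)} (hX : Bdd c X) :
    Bdd c (Matrix.compRingEquiv ι (Fin k) ℂ X) := by
  obtain ⟨y, z, hy, hz⟩ := hX
  refine ⟨Matrix.compRingEquiv ι (Fin k) ℂ y, Matrix.compRingEquiv ι (Fin k) ℂ z, ?_, ?_⟩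
  · rw [← comp_star, ← map_mul, hy, map_sub, comp_smul_one]
  · rw [← comp_star, ← map_mul, hz, map_add, comp_smul_one]

lemma Bdd.unflatten {c : ℝ} {X : Matrix ι ι (Matrix (Fin k) (Fin k) ℂ)}
    (hX : Bdd c (Matrix.compRingEquiv ι (Fin k) ℂ X)) : Bdd c X := by
  obtain ⟨y, z, hy, hz⟩ := hX
  obtain ⟨y, rfl⟩ := (Matrix.compRingEquiv ι (Fin k) ℂ).surjective y
  obtain ⟨z, rfl⟩ := (Matrix.compRingEquiv ι (Fin k) ℂ).surjective z
  refine ⟨y, z, ?_, ?_⟩ <;> apply (Matrix.compRingEquiv ι (Fin k) ℂ).injective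
  · rw [map_mul, map_sub, comp_smul_one, comp_star, hy]
  · rw [map_mul, map_add, comp_smul_one, comp_star, hz]

variable {A : Type u} [CStarAlgebra A] [PartialOrder A] [StarOrderedRing A]

lemma bdd_of_norm_le {c : ℝ} {X : CStarMatrix ι ι A} (hX : IsSelfAdjoint X) (h : ‖X‖ ≤ c) :
    Bdd c (CStarMatrix.ofMatrix.symm X) := exists_gram hX h

omit [PartialOrder A] [StarOrderedRing A] in
lemma Bdd.isSelfAdjoint {c : ℝ} {X : Matrix ι ι A} (hX : Bdd c X) : IsSelfAdjoint X := by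
  obtain ⟨y, -, hy, -⟩ := hX
  have e : X = (c : ℂ) • (1 : Matrix ι ι A) - star y * y := by rw [hy]; abel
  rw [e]
  refine IsSelfAdjoint.sub ?_ (IsSelfAdjoint.star_mul_self y)
  exact IsSelfAdjoint.smul (by simp [IsSelfAdjoint]) (IsSelfAdjoint.one _)

lemma Bdd.norm_le {c : ℝ} (hc : 0 ≤ c) {X : Matrix ι ι A} (hX : Bdd c X) :
    ‖CStarMatrix.ofMatrix X‖ ≤ c := by
  have hs := hX.isSelfAdjoint
  obtain ⟨y, z, hy, hz⟩ := hX
  exact norm_le_of_gram (x := CStarMatrix.ofMatrix X) (y := CStarMatrix.ofMatrix y)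
    (z := CStarMatrix.ofMatrix z) hc hs hy hz

end Vale.Agent.P095.Amenable.FreeModel
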