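import Vale.Agent.P095.Amenable.Defs

/-! Norms of matrices over an algebra, and transfer by completely positive maps. -/

noncomputable section

open scoped Classical ComplexOrder

namespace Vale.Agent.P095.Amenable.FreeModel

universe u v

section General

variable {A : Type u} [CStarAlgebra A] [PartialOrder A] [StarOrderedRing A]

/-- A self-adjoint element of norm at most c lies between two squares. -/
lemma exists_gram {x : A} {c : ℝ} (hx : IsSelfAdjoint x) (h : ‖x‖ ≤ c) :
    ∃ y z : A, star y * y = (c : ℂ) • (1 : A) - x ∧ star z * z = (c : ℂ) • (1 : A) + x := by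
  have hc : algebraMap ℝ A ‖x‖ ≤ (c : ℂ) • (1 : A) := by
    rw [Complex.coe_smul, Algebra.algebraMap_eq_smul_one]
    exact smul_le_smul_of_nonneg_right h zero_le_one
  have h1 : (0 : A) ≤ (c : ℂ) • (1 : A) - x :=
    sub_nonneg.2 (hx.le_algebraMap_norm_self.trans hc)
  have h2 : (0 : A) ≤ (c : ℂ) • (1 : A) + x :=
    neg_le_iff_add_nonneg'.1 (neg_le.1 ((neg_le.1 (hx.neg_algebraMap_norm_le_self)).trans hc))
  have key : ∀ w : A, 0 ≤ w → ∃ y : A, star y * y = w := fun w hw =>
    ⟨CFC.sqrt w, by rw [(CFC.sqrt_nonneg w).isSelfAdjoint.star_eq, CFC.sqrt_mul_sqrt_self w hw]⟩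
  obtain ⟨y, hy⟩ := key _ h1
  obtain ⟨z, hz⟩ := key _ h2
  exact ⟨y, z, hy, hz⟩

/-- The converse. -/
lemma norm_le_of_gram {x y z : A} {c : ℝ} (hc : 0 ≤ c) (hx : IsSelfAdjoint x)
    (hy : star y * y = (c : ℂ) • (1 : A) - x) (hz : star z * z = (c : ℂ) • (1 : A) + x) :
    ‖x‖ ≤ c := by
  rcases subsingleton_or_nontrivial A with h | h
  · simp [Subsingleton.elim x 0, hc]
  have h1 : x ≤ algebraMap ℝ A c := by
    rw [Algebra.algebraMap_eq_smul_one, ← Complex.coe_smul, ← sub_nonneg, ← hy]
    exact star_mul_self_nonneg y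
  have h2 : -algebraMap ℝ A c ≤ x := by
    rw [Algebra.algebraMap_eq_smul_one, ← Complex.coe_smul, neg_le_iff_add_nonneg', ← hz]
    exact star_mul_self_nonneg z
  have u1 := (le_algebraMap_iff_spectrum_le (a := x) hx).1 h1
  have u2 := (algebraMap_le_iff_le_spectrum (a := x) (r := -c) hx).1 (by rwa [map_neg])
  rcases CStarAlgebra.norm_or_neg_norm_mem_spectrum hx with h' | h'
  · exact u1 _ h'
  · exact neg_le_neg_iff.1 (u2 _ h')

omit [PartialOrder A] [StarOrderedRing A] in
/-- A sum of one term at most. -/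
lemma norm_sum_unique {ι : Type v} [Fintype ι] {a : ι → A} {c : ℝ} (hc : 0 ≤ c)
    (h : ∀ i, ‖a i‖ ≤ c) (p : ι → Prop) [DecidablePred p] (hp : ∀ i j, p i → p j → i = j) :
    ‖∑ i, if p i then a i else 0‖ ≤ c := by
  by_cases he : ∃ i, p i
  · obtain ⟨i, hi⟩ := he
    rw [Fintype.sum_eq_single i fun j hj => if_neg fun hj' => hj (hp j i hj' hi), if_pos hi]
    exact h i
  · push Not at he
    simpa [he] using hc

/-- Any part of a sum of positive terms. -/
lemma norm_sum_part {ι : Type v} [Fintype ι] {a : ι → A} (ha : ∀ i, 0 ≤ a i) {c : ℝ}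
    (h : ‖∑ i, a i‖ ≤ c) (p : ι → Prop) [DecidablePred p] : ‖∑ i, if p i then a i else 0‖ ≤ c := by
  refine (CStarAlgebra.norm_le_norm_of_nonneg_of_le (Finset.sum_nonneg fun i _ => ?_)
    (Finset.sum_le_sum fun i _ => ?_)).trans h
  · split_ifs
    · exact ha i
    · exact le_rfl
  · split_ifs
    · exact le_rfl
    · exact ha i

variable {ι : Type v} [Fintype ι] [DecidableEq ι]

/-- A diagonal matrix. -/
def diagM (d : ι → A) : CStarMatrix ι ι A := CStarMatrix.ofMatrix (Matrix.diagonal d)

omit [PartialOrder A] [StarOrderedRing A] [Fintype ι] in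
lemma diagM_apply (d : ι → A) (a b : ι) : diagM d a b = if a = b then d a else 0 :=
  Matrix.diagonal_apply ..

omit [PartialOrder A] [StarOrderedRing A] [Fintype ι] in
lemma diagM_sub (d d' : ι → A) : diagM d - diagM d' = diagM (d - d') :=
  Matrix.diagonal_sub d d'

omit [PartialOrder A] [StarOrderedRing A] [Fintype ι] in
lemma isSelfAdjoint_diagM {d : ι → A} (hd : ∀ i, IsSelfAdjoint (d i)) :
    IsSelfAdjoint (diagM d) := by
  change star (Matrix.diagonal d) = Matrix.diagonal d
  rw [Matrix.star_eq_conjTranspose, Matrix.diagonal_conjTranspose]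
  exact congrArg _ (funext fun i => hd i)

lemma norm_diagM_selfAdjoint {d : ι → A} {c : ℝ} (hc : 0 ≤ c) (hd : ∀ i, IsSelfAdjoint (d i))
    (h : ∀ i, ‖d i‖ ≤ c) : ‖diagM d‖ ≤ c := by
  choose y z hy hz using fun i => exists_gram (hd i) (h i)
  refine norm_le_of_gram hc ?_ (y := diagM y) (z := diagM z) ?_ ?_
  · exact isSelfAdjoint_diagM hd
  · change star (Matrix.diagonal y) * Matrix.diagonal y
      = (c : ℂ) • (1 : Matrix ι ι A) - Matrix.diagonal d
    rw [Matrix.star_eq_conjTranspose, Matrix.diagonal_conjTranspose, Matrix.diagonal_mul_diagonal,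
      ← Matrix.diagonal_one, ← Matrix.diagonal_smul, Matrix.diagonal_sub]
    exact congrArg _ (funext fun i => by simpa using hy i)
  · change star (Matrix.diagonal z) * Matrix.diagonal z
      = (c : ℂ) • (1 : Matrix ι ι A) + Matrix.diagonal d
    rw [Matrix.star_eq_conjTranspose, Matrix.diagonal_conjTranspose, Matrix.diagonal_mul_diagonal,
      ← Matrix.diagonal_one, ← Matrix.diagonal_smul, Matrix.diagonal_add]
    exact congrArg _ (funext fun i => by simpa using hz i)

lemma norm_diagM {d : ι → A} {c : ℝ} (hc : 0 ≤ c) (h : ∀ i, ‖d i‖ ≤ c) : ‖diagM d‖ ≤ c := by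
  have e : star (diagM d) * diagM d = diagM fun i => star (d i) * d i := by
    change star (Matrix.diagonal d) * Matrix.diagonal d = Matrix.diagonal _
    rw [Matrix.star_eq_conjTranspose, Matrix.diagonal_conjTranspose, Matrix.diagonal_mul_diagonal]
    rfl
  have h2 : ‖diagM d‖ * ‖diagM d‖ ≤ c * c := by
    rw [← CStarRing.norm_star_mul_self, e]
    refine norm_diagM_selfAdjoint (mul_nonneg hc hc) (fun i => IsSelfAdjoint.star_mul_self _) ?_
    intro i
    rw [CStarRing.norm_star_mul_self]
    exact mul_le_mul (h i) (h i) (norm_nonneg _) hc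
  nlinarith [norm_nonneg (diagM d)]

end General

/-- Completely positive maps on matrices indexed by any finite type. -/
lemma cp_fintype {B : Type u} {C : Type v} [Ring B] [StarRing B] [Algebra ℂ B] [Ring C]
    [StarRing C] [Algebra ℂ C] {φ : B →ₗ[ℂ] C} (h : IsCP φ) {ι : Type*} [Fintype ι]
    (X : Matrix ι ι B) : ∃ Y : Matrix ι ι C, (star X * X).map φ = star Y * Y := by
  set e := Fintype.equivFin ι with he
  obtain ⟨Y, hY⟩ := h _ (X.submatrix e.symm e.symm)
  refine ⟨Y.submatrix e e, ?_⟩
  have h1 := congrArg (fun M => M.submatrix e e) hY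
  simp only [Matrix.star_eq_conjTranspose, Matrix.conjTranspose_submatrix,
    Matrix.submatrix_mul_equiv, ← Matrix.submatrix_map] at h1 ⊢
  simpa [Matrix.submatrix_submatrix] using h1

end Vale.Agent.P095.Amenable.FreeModel
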