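import Vale.Agent.P095.Amenable.Free.Words
import Vale.Agent.P095.Amenable.Free.Norms

/-! The operator inequality on a ball of the free group: splitting by the first letter. -/

noncomputable section

open scoped Classical

namespace Vale.Agent.P095.Amenable.FreeModel

universe u

variable {n : ℕ}

/-- The off-diagonal sum on a ball, with coefficients c. -/
def ballMat {M : Type*} [AddCommMonoid M] (R : ℕ) (c : Fin n → Fin n → M) :
    Matrix (Ball n (R + 1)) (Ball n (R + 1)) M :=
  fun a b => ∑ j, ∑ k, if a.1.norm ≤ R ∧ b.1.norm ≤ R ∧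
    FreeGroup.of j * a.1 = FreeGroup.of k * b.1 then c j k else 0

/-- One step of translation by a generator. -/
def Step (R : ℕ) (j : Fin n) (v w : Ball n (R + 1)) : Prop :=
  w.1.norm ≤ R ∧ v.1 = FreeGroup.of j * w.1

lemma norm_of_mul_le {R : ℕ} (j : Fin n) {w : FreeGroup (Fin n)} (h : w.norm ≤ R) :
    (FreeGroup.of j * w).norm ≤ R + 1 :=
  (FreeGroup.norm_mul_le _ _).trans (by rw [FreeGroup.norm_of]; omega)

lemma sum_step {M : Type*} [AddCommMonoid M] (R : ℕ) (j k : Fin n) (a b : Ball n (R + 1))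
    (m : M) : (∑ v, if Step R j v a ∧ Step R k v b then m else 0)
      = if a.1.norm ≤ R ∧ b.1.norm ≤ R ∧ FreeGroup.of j * a.1 = FreeGroup.of k * b.1
        then m else 0 := by
  by_cases ha : a.1.norm ≤ R
  · rw [Fintype.sum_eq_single (⟨FreeGroup.of j * a.1, norm_of_mul_le j ha⟩ : Ball n (R + 1))]
    · refine if_congr ⟨fun h => ⟨ha, h.2.1, h.2.2⟩, fun h => ⟨⟨ha, rfl⟩, h.2.1, h.2.2⟩⟩ rfl rfl
    · intro v hv
      exact if_neg fun h => hv (Subtype.ext h.1.2)
  · rw [if_neg fun h => ha h.1]
    exact Finset.sum_eq_zero fun v _ => if_neg fun h => ha h.1.1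

variable {A : Type u} [CStarAlgebra A] [PartialOrder A] [StarOrderedRing A]

/-- A step operator restricted by a condition on the source. -/
def part (R : ℕ) (x : Fin n → A) (p : Fin n → Ball n (R + 1) → Prop) :
    CStarMatrix (Ball n (R + 1)) (Ball n (R + 1)) A :=
  CStarMatrix.ofMatrix (Matrix.of fun v w => ∑ j, if Step R j v w ∧ p j w then x j else 0)

omit [PartialOrder A] [StarOrderedRing A] in
lemma part_apply (R : ℕ) (x : Fin n → A) (p : Fin n → Ball n (R + 1) → Prop)
    (v w : Ball n (R + 1)) : part R x p v w = ∑ j, if Step R j v w ∧ p j w then x j else 0 :=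
  rfl

omit [PartialOrder A] [StarOrderedRing A] in
lemma star_mul_part (R : ℕ) (x y : Fin n → A) (p q : Fin n → Ball n (R + 1) → Prop)
    (a b : Ball n (R + 1)) : (star (part R x p) * part R y q) a b
      = ∑ j, ∑ k, if (a.1.norm ≤ R ∧ b.1.norm ≤ R ∧
          FreeGroup.of j * a.1 = FreeGroup.of k * b.1) ∧ p j a ∧ q k b
        then star (x j) * y k else 0 := by
  rw [CStarMatrix.mul_apply]
  simp only [CStarMatrix.star_apply, part_apply, star_sum, Finset.sum_mul_sum]
  rw [Finset.sum_comm]
  refine Finset.sum_congr rfl fun j _ => ?_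
  rw [Finset.sum_comm]
  refine Finset.sum_congr rfl fun k _ => ?_
  calc _ = ∑ v, if Step R j v a ∧ Step R k v b then
        (if p j a ∧ q k b then star (x j) * y k else 0) else 0 := by
        refine Finset.sum_congr rfl fun v _ => ?_
        by_cases h1 : Step R j v a <;> by_cases h2 : Step R k v b <;>
          by_cases h3 : p j a <;> by_cases h4 : q k b <;> simp [h1, h2, h3, h4]
    _ = _ := by
        rw [sum_step, ← ite_and]

omit [PartialOrder A] [StarOrderedRing A] in
lemma ite_sum_single {R : ℕ} (p : Fin n → Ball n (R + 1) → Prop) (y : Fin n → Fin n → A)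
    (hp : ∀ j k a b, p j a → p k b → a.1.norm ≤ R → b.1.norm ≤ R →
      FreeGroup.of j * a.1 = FreeGroup.of k * b.1 → j = k) (a b : Ball n (R + 1)) :
    (∑ j, ∑ k, if (a.1.norm ≤ R ∧ b.1.norm ≤ R ∧
          FreeGroup.of j * a.1 = FreeGroup.of k * b.1) ∧ p j a ∧ p k b then y j k else 0)
      = if a = b then ∑ j, if a.1.norm ≤ R ∧ p j a then y j j else 0 else 0 := by
  by_cases hab : a = b
  · subst hab
    rw [if_pos rfl]
    refine Finset.sum_congr rfl fun j _ => ?_
    rw [Fintype.sum_eq_single j fun k hk => if_neg fun h =>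
      hk ((hp j k a a h.2.1 h.2.2 h.1.1 h.1.2.1 h.1.2.2).symm)]
    exact if_congr ⟨fun h => ⟨h.1.1, h.2.1⟩, fun h => ⟨⟨h.1, h.1, rfl⟩, h.2, h.2⟩⟩ rfl rfl
  · rw [if_neg hab]
    refine Finset.sum_eq_zero fun j _ => Finset.sum_eq_zero fun k _ => if_neg fun h => hab ?_
    obtain rfl := hp j k a b h.2.1 h.2.2 h.1.1 h.1.2.1 h.1.2.2
    exact Subtype.ext (mul_left_cancel h.1.2.2)

/-- The sum of squares carried by the sources allowed by the condition. -/
def weight (R : ℕ) (x : Fin n → A) (p : Fin n → Ball n (R + 1) → Prop) :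
    Ball n (R + 1) → A :=
  fun w => ∑ j, if w.1.norm ≤ R ∧ p j w then star (x j) * x j else 0

omit [PartialOrder A] [StarOrderedRing A] in
lemma gram_noncancel (R : ℕ) (x : Fin n → A) :
    star (part R x fun j w => ¬ Cancels j w.1) * part R x (fun j w => ¬ Cancels j w.1)
      = diagM (weight R x fun j w => ¬ Cancels j w.1) := by
  ext a b
  rw [star_mul_part, ite_sum_single (fun j (w : Ball n (R + 1)) => ¬ Cancels j w.1)
    (fun j k => star (x j) * x k) fun j k a b hj hk _ _ e => first_letter hj hk e, diagM_apply]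
  rfl

omit [PartialOrder A] [StarOrderedRing A] in
lemma part_split (R : ℕ) (x : Fin n → A) :
    part R x (fun j w => ¬ Cancels j w.1) + part R x (fun j w => Cancels j w.1)
      = part R x fun _ _ => True := by
  ext v w
  rw [CStarMatrix.add_apply, part_apply, part_apply, part_apply, ← Finset.sum_add_distrib]
  refine Finset.sum_congr rfl fun j _ => ?_
  by_cases h1 : Step R j v w <;> by_cases h2 : Cancels j w.1 <;> simp [h1, h2]

omit [PartialOrder A] [StarOrderedRing A] in
lemma ballMat_eq (R : ℕ) (x : Fin n → A) :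
    CStarMatrix.ofMatrix (ballMat R fun j k => if j = k then (0 : A) else star (x j) * x k)
      + diagM (weight R x fun _ _ => True)
      = star (part R x fun _ _ => True) * part R x fun _ _ => True := by
  ext a b
  rw [CStarMatrix.add_apply, star_mul_part, diagM_apply]
  change ballMat R _ a b + _ = _
  simp only [ballMat, weight, and_true]
  have e : ∀ j, (∑ k, if a.1.norm ≤ R ∧ b.1.norm ≤ R ∧
        FreeGroup.of j * a.1 = FreeGroup.of k * b.1 then
          (if j = k then star (x j) * x k else 0) else 0)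
      = if a = b ∧ a.1.norm ≤ R then star (x j) * x j else 0 := by
    intro j
    rw [Fintype.sum_eq_single j fun k hk => by simp [Ne.symm hk], if_pos rfl]
    refine if_congr ⟨fun h => ⟨Subtype.ext (mul_left_cancel h.2.2), h.1⟩, ?_⟩ rfl rfl
    rintro ⟨rfl, h⟩
    exact ⟨h, h, rfl⟩
  have hdiag : (if a = b then ∑ j, if a.1.norm ≤ R then star (x j) * x j else 0 else 0)
      = ∑ j, ∑ k, if a.1.norm ≤ R ∧ b.1.norm ≤ R ∧
          FreeGroup.of j * a.1 = FreeGroup.of k * b.1 then
            (if j = k then star (x j) * x k else 0) else 0 := by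
    simp only [e]
    by_cases hab : a = b <;> simp [hab]
  rw [hdiag, ← Finset.sum_add_distrib]
  refine Finset.sum_congr rfl fun j _ => ?_
  rw [← Finset.sum_add_distrib]
  refine Finset.sum_congr rfl fun k _ => ?_
  by_cases hjk : j = k <;> split_ifs <;> simp

omit [PartialOrder A] [StarOrderedRing A] in
lemma cogram_cancel (R : ℕ) (x : Fin n → A) :
    part R x (fun j w => Cancels j w.1) * star (part R x fun j w => Cancels j w.1)
      = diagM fun v => ∑ j, if ∃ w, Step R j v w ∧ Cancels j w.1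
          then x j * star (x j) else 0 := by
  ext a b
  rw [CStarMatrix.mul_apply, diagM_apply]
  simp only [CStarMatrix.star_apply, part_apply, star_sum, Finset.sum_mul_sum]
  have e1 : ∀ j k w, (if Step R j a w ∧ Cancels j w.1 then x j else 0)
      * star (if Step R k b w ∧ Cancels k w.1 then x k else 0)
      = if (j = k ∧ a = b) ∧ Step R j a w ∧ Cancels j w.1
        then x j * star (x j) else 0 := by
    intro j k w
    by_cases h1 : Step R j a w ∧ Cancels j w.1
    · by_cases h2 : Step R k b w ∧ Cancels k w.1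
      · obtain rfl := cancels_unique h1.2 h2.2
        rw [if_pos h1, if_pos h2,
          if_pos ⟨⟨rfl, Subtype.ext (h1.1.2.trans h2.1.2.symm)⟩, h1⟩]
      · rw [if_neg h2, star_zero, mul_zero, if_neg]
        rintro ⟨⟨rfl, rfl⟩, h⟩
        exact h2 h
    · rw [if_neg h1, zero_mul, if_neg fun h => h1 h.2]
  simp only [e1]
  by_cases hab : a = b
  · subst hab
    rw [if_pos rfl, Finset.sum_comm]
    refine Finset.sum_congr rfl fun j _ => ?_
    rw [Finset.sum_comm]
    rw [Fintype.sum_eq_single j fun k hk =>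
      Finset.sum_eq_zero fun w _ => if_neg fun h => hk h.1.1.symm]
    split_ifs with h
    · obtain ⟨w, hw⟩ := h
      rw [Fintype.sum_eq_single w fun w' hw' => if_neg fun h' => hw'
        (Subtype.ext (mul_left_cancel (h'.2.1.2.symm.trans hw.1.2))), if_pos ⟨⟨rfl, rfl⟩, hw⟩]
    · exact Finset.sum_eq_zero fun w _ => if_neg fun h' => h ⟨w, h'.2⟩
  · simp [hab]

/-- The bound. -/
lemma ball_bound (x : Fin n → A) (δ : ℝ) (hδ : 0 < δ) (hδ1 : δ ≤ 1)
    (he : ‖∑ j, star (x j) * x j‖ ≤ 2) (hr : ‖∑ j, x j * star (x j)‖ ≤ δ) (R : ℕ) :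
    IsSelfAdjoint (CStarMatrix.ofMatrix
        (ballMat R fun j k => if j = k then 0 else star (x j) * x k)) ∧
    ‖CStarMatrix.ofMatrix (ballMat R fun j k => if j = k then 0 else star (x j) * x k)‖
      ≤ 5 * Real.sqrt δ := by
  set X := CStarMatrix.ofMatrix
    (ballMat R fun j k => if j = k then (0 : A) else star (x j) * x k) with hX
  set S₁ := part R x fun j w => ¬ Cancels j w.1 with hS₁
  set S₂ := part R x fun j w => Cancels j w.1 with hS₂
  set E := diagM (weight R x fun _ _ => True) with hE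
  have hXeq : X = star (S₁ + S₂) * (S₁ + S₂) - E := by
    rw [eq_sub_iff_add_eq, hX, hE, ballMat_eq, hS₁, hS₂, part_split]
  refine ⟨?_, ?_⟩
  · rw [hXeq]
    refine (IsSelfAdjoint.star_mul_self _).sub (isSelfAdjoint_diagM fun w => ?_)
    simp only [weight, IsSelfAdjoint, star_sum]
    exact Finset.sum_congr rfl fun j _ => by split_ifs <;> simp
  have hsmall : ∀ j, ‖star (x j) * x j‖ ≤ δ := by
    intro j
    rw [CStarRing.norm_star_mul_self, ← CStarRing.norm_self_mul_star]
    exact (CStarAlgebra.norm_le_norm_of_nonneg_of_le (mul_star_self_nonneg _)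
      (Finset.single_le_sum (f := fun i => x i * star (x i))
        (fun i _ => mul_star_self_nonneg _) (Finset.mem_univ j))).trans hr
  have hD : star S₁ * S₁ - E
      = diagM fun w => -∑ j, if w.1.norm ≤ R ∧ Cancels j w.1 then star (x j) * x j else 0 := by
    rw [hS₁, gram_noncancel, hE, diagM_sub]
    refine congrArg _ (funext fun w => ?_)
    rw [Pi.sub_apply]
    simp only [weight]
    rw [← Finset.sum_sub_distrib, ← Finset.sum_neg_distrib]
    refine Finset.sum_congr rfl fun j _ => ?_
    by_cases h1 : w.1.norm ≤ R <;> by_cases h2 : Cancels j w.1 <;> simp [h1, h2]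
  have hs : δ ≤ Real.sqrt δ := by
    nlinarith [Real.mul_self_sqrt hδ.le, Real.sqrt_nonneg δ, Real.sqrt_le_one.2 hδ1]
  have hDn : ‖star S₁ * S₁ - E‖ ≤ δ := by
    rw [hD]
    refine norm_diagM hδ.le fun w => ?_
    rw [norm_neg]
    exact norm_sum_unique hδ.le hsmall (fun j => w.1.norm ≤ R ∧ Cancels j w.1)
      fun i j hi hj => cancels_unique hi.2 hj.2
  have h1n : ‖S₁‖ * ‖S₁‖ ≤ 2 := by
    rw [← CStarRing.norm_star_mul_self, hS₁, gram_noncancel]
    refine norm_diagM (by norm_num) fun w => ?_
    simp only [weight]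
    refine (le_of_eq (congrArg norm (Finset.sum_congr rfl fun j _ => ?_))).trans
      (norm_sum_part (fun j => star_mul_self_nonneg (x j)) he
        (fun j => w.1.norm ≤ R ∧ ¬ Cancels j w.1))
    split_ifs <;> rfl
  have h2n : ‖S₂‖ * ‖S₂‖ ≤ δ := by
    rw [← CStarRing.norm_self_mul_star, hS₂, cogram_cancel]
    exact norm_diagM hδ.le fun v =>
      norm_sum_part (fun j => mul_star_self_nonneg (x j)) hr
        (fun j => ∃ w, Step R j v w ∧ Cancels j w.1)
  rw [hXeq]
  have e : star (S₁ + S₂) * (S₁ + S₂) - E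
      = (star S₁ * S₁ - E) + (star S₁ * S₂ + star S₂ * S₁ + star S₂ * S₂) := by
    rw [star_add, add_mul, mul_add, mul_add]; abel
  rw [e]
  have a1 := norm_mul_le (star S₁) S₂
  have a2 := norm_mul_le (star S₂) S₁
  have a3 := norm_mul_le (star S₂) S₂
  rw [norm_star] at a1 a2 a3
  have hb : ‖S₁‖ * ‖S₂‖ ≤ 3 / 2 * Real.sqrt δ := by
    nlinarith [Real.mul_self_sqrt hδ.le, Real.sqrt_nonneg δ, norm_nonneg S₁, norm_nonneg S₂,
      mul_le_mul h1n h2n (mul_self_nonneg _) (by norm_num)]
  have t := norm_add₃_le (a := star S₁ * S₂) (b := star S₂ * S₁) (c := star S₂ * S₂)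
  refine (norm_add_le _ _).trans ?_
  linarith [mul_comm ‖S₁‖ ‖S₂‖]

end Vale.Agent.P095.Amenable.FreeModel
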