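import Vale.Agent.P095.Amenable.Free.Block

/-! Moments in the finite group model agree with those on the ball. -/

noncomputable section

open scoped Classical

namespace Vale.Agent.P095.Amenable.FreeModel

variable {n R : ℕ} {M : Type*} [Semiring M] {ι : Type*} [Fintype ι] [DecidableEq ι]

/-- The off-diagonal sum in the regular representation of the finite model. -/
def grpMat (E : ι ≃ Equiv.Perm (Ball n (R + 1))) (c : Fin n → Fin n → M) : Matrix ι ι M :=
  fun a b => ∑ j, ∑ k,
    if E a = model n (R + 1) ((FreeGroup.of j)⁻¹ * FreeGroup.of k) * E b then c j k else 0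

lemma norm_move_le {j k : Fin n} {v : FreeGroup (Fin n)} {m : ℕ} (h : v.norm ≤ m) :
    ((FreeGroup.of j)⁻¹ * (FreeGroup.of k * v)).norm ≤ m + 2 := by
  refine (FreeGroup.norm_mul_le _ _).trans ?_
  have := FreeGroup.norm_mul_le (FreeGroup.of k) v
  rw [FreeGroup.norm_inv_eq, FreeGroup.norm_of]
  rw [FreeGroup.norm_of] at this
  omega

lemma ballMat_pow_supp (c : Fin n → Fin n → M) : ∀ (m : ℕ) (b : Ball n (R + 1)),
    ((ballMat R c) ^ m) b (base n (R + 1)) ≠ 0 → b.1.norm ≤ 2 * m
  | 0, b, hb => by
    rw [pow_zero, Matrix.one_apply] at hb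
    split_ifs at hb with h
    · simp [h, base]
    · exact absurd rfl hb
  | m + 1, b, hb => by
    rw [pow_succ', Matrix.mul_apply] at hb
    obtain ⟨v, -, hv⟩ := Finset.exists_ne_zero_of_sum_ne_zero hb
    have hv2 := ballMat_pow_supp c m v (right_ne_zero_of_mul hv)
    have hv1 := left_ne_zero_of_mul hv
    obtain ⟨j, -, hj⟩ := Finset.exists_ne_zero_of_sum_ne_zero hv1
    obtain ⟨k, -, hk⟩ := Finset.exists_ne_zero_of_sum_ne_zero hj
    split_ifs at hk with h
    · have e : b.1 = (FreeGroup.of j)⁻¹ * (FreeGroup.of k * v.1) := by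
        rw [← h.2.2, inv_mul_cancel_left]
      rw [e]
      exact (norm_move_le hv2).trans (by omega)
    · exact absurd rfl hk

lemma grpMat_pow (E : ι ≃ Equiv.Perm (Ball n (R + 1))) (c : Fin n → Fin n → M) :
    ∀ m : ℕ, 2 * m ≤ R → ∀ a h : ι, ((grpMat E c) ^ m) a h
      = ∑ b, if E a = model n (R + 1) b.1 * E h
          then ((ballMat R c) ^ m) b (base n (R + 1)) else 0
  | 0, _, a, h => by
    rw [pow_zero, pow_zero, Fintype.sum_eq_single (base n (R + 1))]
    · simp [Matrix.one_apply, base, E.apply_eq_iff_eq]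
    · intro b hb
      simp [hb]
  | m + 1, hm, a, h => by
    have ih := grpMat_pow E c m (by omega)
    set Q := fun v => ((ballMat R c) ^ m) v (base n (R + 1)) with hQ
    rw [pow_succ', Matrix.mul_apply]
    have h1 : ∀ x, grpMat E c a x * ((grpMat E c) ^ m) x h
        = ∑ v, if x = E.symm (model n (R + 1) v.1 * E h) then grpMat E c a x * Q v else 0 := by
      intro x
      rw [ih x h, Finset.mul_sum]
      refine Finset.sum_congr rfl fun v _ => ?_
      rw [mul_ite, mul_zero]
      exact if_congr E.eq_symm_apply.symm rfl rfl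
    simp only [h1]
    rw [Finset.sum_comm]
    simp only [Finset.sum_ite_eq', Finset.mem_univ, if_true]
    simp only [pow_succ' (ballMat R c) m, Matrix.mul_apply]
    have h2 : ∀ b : Ball n (R + 1),
        (if E a = model n (R + 1) b.1 * E h
          then ∑ v, ballMat R c b v * ((ballMat R c) ^ m) v (base n (R + 1)) else 0)
        = ∑ v, if E a = model n (R + 1) b.1 * E h then ballMat R c b v * Q v else 0 := by
      intro b
      split_ifs <;> simp [hQ]
    simp only [h2]
    conv_rhs => rw [Finset.sum_comm]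
    refine Finset.sum_congr rfl fun v _ => ?_
    by_cases hv : Q v = 0
    · simp [hv]
    have hv2 : v.1.norm ≤ 2 * m := ballMat_pow_supp c m v hv
    simp only [grpMat, E.apply_symm_apply, Finset.sum_mul, ite_mul, zero_mul, ballMat]
    have h3 : ∀ (b : Ball n (R + 1)) (f : Fin n → Fin n → M),
        (if E a = model n (R + 1) b.1 * E h then ∑ j, ∑ k, f j k else 0)
        = ∑ j, ∑ k, if E a = model n (R + 1) b.1 * E h then f j k else 0 := by
      intro b f
      split_ifs <;> simp
    simp only [h3]
    conv_rhs => rw [Finset.sum_comm]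
    refine Finset.sum_congr rfl fun j _ => ?_
    conv_rhs => rw [Finset.sum_comm]
    refine Finset.sum_congr rfl fun k _ => ?_
    have hb : ((FreeGroup.of j)⁻¹ * (FreeGroup.of k * v.1)).norm ≤ R :=
      (norm_move_le hv2).trans (by omega)
    rw [Fintype.sum_eq_single
      (⟨(FreeGroup.of j)⁻¹ * (FreeGroup.of k * v.1), by omega⟩ : Ball n (R + 1))]
    · rw [if_pos (⟨hb, by omega, mul_inv_cancel_left _ _⟩ : _ ∧ _ ∧ _)]
      refine if_congr ?_ rfl rfl
      simp [map_mul, mul_assoc]
    · intro b hb'
      by_cases e : FreeGroup.of j * b.1 = FreeGroup.of k * v.1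
      · exact absurd (Subtype.ext (by simp [← e])) hb'
      · simp [e]

/-- Diagonal moments. -/
lemma grpMat_pow_diag (E : ι ≃ Equiv.Perm (Ball n (R + 1))) (c : Fin n → Fin n → M) {m : ℕ}
    (hm : 2 * m ≤ R) (a : ι) : ((grpMat E c) ^ m) a a
      = ((ballMat R c) ^ m) (base n (R + 1)) (base n (R + 1)) := by
  rw [grpMat_pow E c m hm, Fintype.sum_eq_single (base n (R + 1))]
  · simp [base]
  · intro b hb
    refine if_neg fun e => hb (Subtype.ext ?_)
    exact model_eq_one b.2 (by simpa using (mul_right_cancel (b := E a) (by simpa using e)).symm)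

end Vale.Agent.P095.Amenable.FreeModel
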