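import Mathlib

/-! Balls in the free group and a finite permutation model which is exact on a ball. -/

noncomputable section

open scoped Classical

namespace Vale.Agent.P095.Amenable.FreeModel

variable {n : ℕ}

/-- Words of length at most R. -/
abbrev Ball (n R : ℕ) : Type := {g : FreeGroup (Fin n) // g.norm ≤ R}

instance instFiniteBall (R : ℕ) : Finite (Ball n R) := by
  have : Finite ↥{l : List (Fin n × Bool) | l.length ≤ R} :=
    (List.finite_length_le (Fin n × Bool) R).to_subtype
  refine Finite.of_injective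
    (fun g : Ball n R => (⟨g.1.toWord, g.2⟩ : ↥{l : List (Fin n × Bool) | l.length ≤ R})) ?_
  intro g h e
  exact Subtype.ext (FreeGroup.toWord_injective (congrArg Subtype.val e))

instance instFintypeBall (R : ℕ) : Fintype (Ball n R) := Fintype.ofFinite _

/-- The generator removes the first letter. -/
def Cancels (j : Fin n) (g : FreeGroup (Fin n)) : Prop := g.toWord.head? = some (j, false)

lemma cancels_unique {j k : Fin n} {g : FreeGroup (Fin n)} (hj : Cancels j g) (hk : Cancels k g) :
    j = k := by
  have := hj.symm.trans hk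
  simpa using this

lemma toWord_of_mul {j : Fin n} {g : FreeGroup (Fin n)} (h : ¬ Cancels j g) :
    (FreeGroup.of j * g).toWord = (j, true) :: g.toWord := by
  rw [FreeGroup.toWord_mul, FreeGroup.toWord_of, List.singleton_append]
  apply FreeGroup.IsReduced.reduce_eq
  unfold Cancels at h
  have hg : FreeGroup.IsReduced g.toWord := FreeGroup.isReduced_toWord
  rcases hw : g.toWord with _ | ⟨a, l⟩
  · simp
  · rw [hw] at h hg
    rw [FreeGroup.isReduced_cons_cons]
    refine ⟨fun e => ?_, hg⟩
    obtain ⟨i, b⟩ := a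
    cases b
    · simp_all
    · rfl

lemma first_letter {j k : Fin n} {g h : FreeGroup (Fin n)} (hj : ¬ Cancels j g)
    (hk : ¬ Cancels k h) (e : FreeGroup.of j * g = FreeGroup.of k * h) : j = k := by
  have := congrArg FreeGroup.toWord e
  rw [toWord_of_mul hj, toWord_of_mul hk] at this
  simpa using (List.cons.inj this).1

/-- Extending the left translation of a ball to a permutation. -/
def perm (R : ℕ) (j : Fin n) : Equiv.Perm (Ball n R) :=
  Equiv.extendSubtype (p := fun w : Ball n R => (FreeGroup.of j * w.1).norm ≤ R)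
    (q := fun w : Ball n R => ((FreeGroup.of j)⁻¹ * w.1).norm ≤ R)
    { toFun := fun w => ⟨⟨FreeGroup.of j * w.1.1, w.2⟩, by
        rw [inv_mul_cancel_left]; exact w.1.2⟩
      invFun := fun w => ⟨⟨(FreeGroup.of j)⁻¹ * w.1.1, w.2⟩, by
        rw [mul_inv_cancel_left]; exact w.1.2⟩
      left_inv := fun w => by
        apply Subtype.ext; apply Subtype.ext; exact inv_mul_cancel_left _ _
      right_inv := fun w => by
        apply Subtype.ext; apply Subtype.ext; exact mul_inv_cancel_left _ _ }

lemma perm_val {R : ℕ} {j : Fin n} {w : Ball n R} (h : (FreeGroup.of j * w.1).norm ≤ R) :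
    (perm R j w).1 = FreeGroup.of j * w.1 := by
  unfold perm
  rw [Equiv.extendSubtype_apply_of_mem _ w h]
  rfl

lemma perm_symm_val {R : ℕ} {j : Fin n} {w : Ball n R}
    (h : ((FreeGroup.of j)⁻¹ * w.1).norm ≤ R) :
    ((perm R j).symm w).1 = (FreeGroup.of j)⁻¹ * w.1 := by
  have hw : perm R j ⟨(FreeGroup.of j)⁻¹ * w.1, h⟩ = w := by
    apply Subtype.ext
    rw [perm_val (w := ⟨(FreeGroup.of j)⁻¹ * w.1, h⟩) (by rw [mul_inv_cancel_left]; exact w.2)]
    exact mul_inv_cancel_left _ _
  rw [(perm R j).symm_apply_eq.2 hw.symm]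

/-- The finite model. -/
def model (n R : ℕ) : FreeGroup (Fin n) →* Equiv.Perm (Ball n R) :=
  FreeGroup.lift (perm R)

/-- The empty word. -/
def base (n R : ℕ) : Ball n R := ⟨1, by simp⟩

lemma model_base_aux {R : ℕ} : ∀ l : List (Fin n × Bool), FreeGroup.IsReduced l → l.length ≤ R →
    (model n R (FreeGroup.mk l) (base n R)).1 = FreeGroup.mk l
  | [], _, _ => by
    rw [← FreeGroup.one_eq_mk]
    simp [base, Equiv.Perm.one_apply]
  | (j, b) :: l, hr, hl => by
    have hr' : FreeGroup.IsReduced l := List.IsChain.tail hr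
    have hl' : l.length ≤ R := by simp only [List.length_cons] at hl; omega
    have ih := model_base_aux l hr' hl'
    have hn : (FreeGroup.mk ((j, b) :: l)).norm ≤ R :=
      FreeGroup.norm_mk_le.trans (by simpa using hl)
    have hsplit : FreeGroup.mk ((j, b) :: l) = FreeGroup.mk [(j, b)] * FreeGroup.mk l := by
      rw [FreeGroup.mul_mk, List.singleton_append]
    rw [hsplit] at hn ⊢
    rw [map_mul, Equiv.Perm.mul_apply]
    cases b
    · have e : FreeGroup.mk [(j, false)] = (FreeGroup.of j)⁻¹ := by
        simp [FreeGroup.of, FreeGroup.inv_mk, FreeGroup.invRev]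
      rw [e] at hn ⊢
      rw [map_inv, model, FreeGroup.lift_apply_of, Equiv.Perm.inv_def]
      rw [perm_symm_val (by rw [← model, ih]; exact hn), ← model, ih]
    · have e : FreeGroup.mk [(j, true)] = FreeGroup.of j := rfl
      rw [e] at hn ⊢
      rw [model, FreeGroup.lift_apply_of]
      rw [perm_val (by rw [← model, ih]; exact hn), ← model, ih]

lemma model_base {R : ℕ} (g : Ball n R) : model n R g.1 (base n R) = g := by
  apply Subtype.ext
  have := model_base_aux g.1.toWord FreeGroup.isReduced_toWord g.2
  rwa [FreeGroup.mk_toWord] at this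

lemma model_injOn {R : ℕ} {g h : FreeGroup (Fin n)} (hg : g.norm ≤ R) (hh : h.norm ≤ R)
    (e : model n R g = model n R h) : g = h := by
  have h1 := model_base (R := R) ⟨g, hg⟩
  have h2 := model_base (R := R) ⟨h, hh⟩
  rw [e] at h1
  exact congrArg Subtype.val (h1.symm.trans h2)

lemma model_eq_one {R : ℕ} {g : FreeGroup (Fin n)} (hg : g.norm ≤ R)
    (e : model n R g = 1) : g = 1 :=
  model_injOn hg (by simp) (by rw [e, map_one])

end Vale.Agent.P095.Amenable.FreeModel
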